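import Mathlib

set_option autoImplicit false

namespace Crest.Agent.R74

/-- Tangent-line bound for the barrier `sqrt ((a+b+lam)^2 - 4ab)`. -/
lemma key_real {a b lam h ξ η r : ℝ} (ha : 0 < a) (hb : 0 < b) (hlam : 0 < lam) (hh : 0 < h)
    (hh2 : h ^ 2 = (a + b + lam) ^ 2 - 4 * a * b) (hξ : |ξ| ≤ h / 4) (hη : |η| ≤ h / 4)
    (hr : r ^ 2 ≤ ((a - ξ) + (b - η) + lam) ^ 2 - 4 * (a - ξ) * (b - η)) :
    h / 2 ≤ h - (a - b + lam) / h * ξ - (b - a + lam) / h * η ∧
    h - (a - b + lam) / h * ξ - (b - a + lam) / h * η ≤ 2 * h ∧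
    r ≤ (h - (a - b + lam) / h * ξ - (b - a + lam) / h * η) +
      (4 * lam * (b * ξ ^ 2 + a * η ^ 2 - (a + b + lam) * ξ * η) / h ^ 2) /
        (2 * (h - (a - b + lam) / h * ξ - (b - a + lam) / h * η)) := by
  have h1 : |(a - b + lam) / h| ≤ 1 := by
    rw [abs_div, abs_of_pos hh, div_le_one hh]
    apply abs_le_of_sq_le_sq _ hh.le
    nlinarith [mul_pos hlam hb]
  have h2 : |(b - a + lam) / h| ≤ 1 := by
    rw [abs_div, abs_of_pos hh, div_le_one hh]
    apply abs_le_of_sq_le_sq _ hh.le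
    nlinarith [mul_pos hlam ha]
  have h3 : |(a - b + lam) / h * ξ| ≤ h / 4 := by
    rw [abs_mul]
    calc |(a - b + lam) / h| * |ξ| ≤ 1 * (h / 4) := by gcongr
      _ = h / 4 := by ring
  have h4 : |(b - a + lam) / h * η| ≤ h / 4 := by
    rw [abs_mul]
    calc |(b - a + lam) / h| * |η| ≤ 1 * (h / 4) := by gcongr
      _ = h / 4 := by ring
  have h3' := abs_le.mp h3
  have h4' := abs_le.mp h4
  set m := h - (a - b + lam) / h * ξ - (b - a + lam) / h * η with hm
  have hm1 : h / 2 ≤ m := by rw [hm]; linarith [h3'.1, h3'.2, h4'.1, h4'.2]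
  have hm2 : m ≤ 2 * h := by rw [hm]; linarith [h3'.1, h3'.2, h4'.1, h4'.2]
  refine ⟨hm1, hm2, ?_⟩
  have hm0 : 0 < m := by linarith
  have hE : ((a - ξ) + (b - η) + lam) ^ 2 - 4 * (a - ξ) * (b - η) =
      m ^ 2 + 4 * lam * (b * ξ ^ 2 + a * η ^ 2 - (a + b + lam) * ξ * η) / h ^ 2 := by
    have hmh : m * h = h ^ 2 - (a - b + lam) * ξ - (b - a + lam) * η := by
      rw [hm]; field_simp
    have hh0 : h ^ 2 ≠ 0 := by positivity
    have : (((a - ξ) + (b - η) + lam) ^ 2 - 4 * (a - ξ) * (b - η)) * h ^ 2 =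
        (m * h) ^ 2 + 4 * lam * (b * ξ ^ 2 + a * η ^ 2 - (a + b + lam) * ξ * η) := by
      rw [hmh, hh2]; ring
    field_simp
    linarith
  rw [hE] at hr
  set E := 4 * lam * (b * ξ ^ 2 + a * η ^ 2 - (a + b + lam) * ξ * η) / h ^ 2
  have : r - m ≤ E / (2 * m) := by
    rw [le_div_iff₀ (by positivity)]
    nlinarith [sq_nonneg (r - m)]
  linarith

/-- Uniform negativity of the quadratic form along the billiard direction. -/
lemma neg_real {a b lam h g : ℝ} (ha : 0 < a) (hb : 0 < b) (hlam : 0 < lam) (hh : 0 < h)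
    (hh2 : h ^ 2 = (a + b + lam) ^ 2 - 4 * a * b) (hg : 0 < g) (hg2 : g ^ 2 = a * b) :
    ∃ c : ℝ, 0 < c ∧ ∀ α β γ : ℝ, a ≤ α → α ≤ β → β ≤ α + h → β ≤ 2 → 0 ≤ γ →
      γ ^ 2 = α * β → g * (α + β) - (a + b + lam) * γ ≤ -c := by
  have hc3 : 0 < a + h - b := by
    have : b - a < h := by
      apply lt_of_pow_lt_pow_left₀ 2 hh.le
      nlinarith [mul_pos hlam ha, mul_pos hlam hb, sq_nonneg lam]
    linarith
  set μ := min a (a + h - b) with hμ
  have hμ0 : 0 < μ := lt_min ha hc3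
  have hμ1 : μ ≤ a := min_le_left _ _
  have hμ2 : μ ≤ a + h - b := min_le_right _ _
  set S := a + b + lam with hS
  have hS0 : 0 < S := by positivity
  refine ⟨a * h ^ 2 * μ / (2 * S + 4 * g), by positivity, ?_⟩
  intro α β γ h1 h2 h3 h4 h5 h6
  have hα : 0 < α := by linarith
  set d := β - α with hd
  have hd0 : 0 ≤ d := by linarith
  have hd1 : d ≤ h := by linarith
  have hβ : β = α + d := by linarith
  -- main polynomial inequality
  have e1 : h ^ 2 * μ ≤ h ^ 2 * (a + d) - b * d ^ 2 := by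
    have t1 : b * d ^ 2 = (a + h) * d ^ 2 - (a + h - b) * d ^ 2 := by ring
    have t2 : h * d ^ 2 ≤ h ^ 2 * d := by nlinarith [mul_nonneg hd0 hh.le]
    have t3 : d ^ 2 ≤ h ^ 2 := by nlinarith
    have t4 : μ * (h ^ 2 - d ^ 2) ≤ a * (h ^ 2 - d ^ 2) := by
      apply mul_le_mul_of_nonneg_right hμ1; linarith
    have t5 : μ * d ^ 2 ≤ (a + h - b) * d ^ 2 := by
      apply mul_le_mul_of_nonneg_right hμ2; positivity
    nlinarith
  have e2 : a * (h ^ 2 * (a + d)) ≤ h ^ 2 * (α * β) := by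
    have : a * (a + d) ≤ α * β := by
      rw [hβ]; apply mul_le_mul h1 (by linarith) (by linarith) hα.le
    nlinarith [sq_nonneg h]
  have e3 : (S * γ) ^ 2 - (g * (α + β)) ^ 2 = h ^ 2 * (α * β) - a * b * d ^ 2 := by
    have hS2 : S ^ 2 = h ^ 2 + 4 * a * b := by rw [hh2]; ring
    rw [mul_pow, mul_pow, h6, hS2, hg2, hd]; ring
  have e4 : a * h ^ 2 * μ ≤ (S * γ) ^ 2 - (g * (α + β)) ^ 2 := by
    rw [e3]; nlinarith
  have hγ2 : γ ≤ 2 := by
    by_contra hcon
    have hcon' := not_le.mp hcon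
    nlinarith
  have e5 : S * γ + g * (α + β) ≤ 2 * S + 4 * g := by
    have : S * γ ≤ S * 2 := by gcongr
    have : g * (α + β) ≤ g * 4 := by
      apply mul_le_mul_of_nonneg_left _ hg.le; linarith
    linarith
  have e6 : 0 < S * γ + g * (α + β) := by
    have : 0 < g * (α + β) := by apply mul_pos hg; linarith
    have : 0 ≤ S * γ := by positivity
    linarith
  have hpos : 0 < a * h ^ 2 * μ := by positivity
  have e7 : 0 < S * γ - g * (α + β) := by
    by_contra hcon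
    have hcon' := not_lt.mp hcon
    nlinarith
  have e8 : a * h ^ 2 * μ / (2 * S + 4 * g) ≤ S * γ - g * (α + β) := by
    rw [div_le_iff₀ (by positivity)]
    nlinarith
  linarith

end Crest.Agent.R74
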