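import Mathlib
import Crest.Agent.R74.Real

set_option autoImplicit false
set_option linter.unusedSectionVars false

namespace Crest.Agent.R74

variable {ι X Y : Type*} [NormedAddCommGroup X] [NormedSpace ℝ X]
  [NormedAddCommGroup Y] [NormedSpace ℝ Y]

lemma exists_chord (z V : X) (hz : ‖z‖ < 1) (hV : V ≠ 0) :
    ∃ r : ℝ, 0 < r ∧ ‖z - r • V‖ = 1 := by
  have hV0 : 0 < ‖V‖ := norm_pos_iff.mpr hV
  have hc : ContinuousOn (fun r : ℝ => ‖z - r • V‖) (Set.Icc 0 (2 / ‖V‖)) := by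
    fun_prop
  have h1 : (1 : ℝ) ∈ Set.Icc ‖z - (0 : ℝ) • V‖ ‖z - (2 / ‖V‖) • V‖ := by
    constructor
    · simpa using hz.le
    · have h2 : ‖(2 / ‖V‖) • V‖ = 2 := by
        rw [norm_smul, Real.norm_eq_abs, abs_of_pos (by positivity)]; field_simp
      have h3 : ‖(2 / ‖V‖) • V‖ - ‖z‖ ≤ ‖z - (2 / ‖V‖) • V‖ := by
        rw [norm_sub_rev]; exact norm_sub_norm_le _ _
      linarith
  obtain ⟨r, hr, hr1⟩ := intermediate_value_Icc (by positivity) hc h1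
  refine ⟨r, ?_, hr1⟩
  rcases hr.1.eq_or_lt with h | h
  · exfalso
    subst h
    simp at hr1
    linarith
  · exact h

/-- Two parametrisations of unit spheres that induce the same metric. -/
structure Setup (i : ι → X) (j : ι → Y) : Prop where
  ni : ∀ a, ‖i a‖ = 1
  nj : ∀ a, ‖j a‖ = 1
  iso : ∀ a b, ‖i a - i b‖ = ‖j a - j b‖
  si : ∀ v, ‖v‖ = 1 → ∃ a, i a = v
  sj : ∀ v, ‖v‖ = 1 → ∃ a, j a = v

lemma Setup.symm {i : ι → X} {j : ι → Y} (H : Setup i j) : Setup j i :=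
  ⟨H.nj, H.ni, fun a b => (H.iso a b).symm, H.sj, H.si⟩

/-- Data of an interior touching point of the barrier. -/
structure Touch (i : ι → X) (j : ι → Y) (b : ι) (t0 s0 lam h δ : ℝ) : Prop where
  lam0 : 0 < lam
  h0 : 0 < h
  δ0 : 0 < δ
  δ1 : 2 * δ ≤ t0
  δ2 : 2 * δ ≤ 1 - t0
  δ3 : 2 * δ ≤ s0
  δ4 : 2 * δ ≤ 1 - s0
  δ5 : 8 * δ ≤ h
  h2 : h ^ 2 = ((1 - t0) + (1 - s0) + lam) ^ 2 - 4 * (1 - t0) * (1 - s0)
  test : ∀ t s : ℝ, 0 ≤ t → t ≤ 1 → 0 ≤ s → s ≤ 1 → ∀ u,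
    (‖j u - s • j b‖ - ‖i u - t • i b‖) ^ 2 ≤
      ((1 - t) + (1 - s) + lam) ^ 2 - 4 * (1 - t) * (1 - s)

lemma Touch.symm {i : ι → X} {j : ι → Y} {b : ι} {t0 s0 lam h δ : ℝ}
    (T : Touch i j b t0 s0 lam h δ) : Touch j i b s0 t0 lam h δ where
  lam0 := T.lam0
  h0 := T.h0
  δ0 := T.δ0
  δ1 := T.δ3
  δ2 := T.δ4
  δ3 := T.δ1
  δ4 := T.δ2
  δ5 := T.δ5
  h2 := by rw [T.h2]; ring
  test := fun t s h1 h2 h3 h4 u => by
    have := T.test s t h3 h4 h1 h2 u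
    nlinarith

/-- The potential numerator. -/
noncomputable def pot (i : ι → X) (b p : ι) (t0 s0 lam h ξ : ℝ) : ℝ :=
  ‖i p - (t0 + ξ) • i b‖ - ‖i p - t0 • i b‖ + (s0 - t0 + lam) / h * ξ

lemma Touch.far_le {i : ι → X} {j : ι → Y} {b : ι} {t0 s0 lam h δ : ℝ}
    (T : Touch i j b t0 s0 lam h δ) (u : ι) :
    ‖j u - s0 • j b‖ - ‖i u - t0 • i b‖ ≤ h := by
  have h1 := T.test t0 s0 (by linarith [T.δ0, T.δ1]) (by linarith [T.δ0, T.δ2])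
    (by linarith [T.δ0, T.δ3]) (by linarith [T.δ0, T.δ4]) u
  rw [← T.h2] at h1
  exact (abs_le.mp (abs_le_of_sq_le_sq h1 T.h0.le)).2

lemma norm_bounds {i : ι → X} {j : ι → Y} (H : Setup i j) (b u : ι) {t : ℝ} (h0 : 0 ≤ t)
    (h1 : t ≤ 1) : 1 - t ≤ ‖i u - t • i b‖ ∧ ‖i u - t • i b‖ ≤ 2 := by
  have h2 : ‖t • i b‖ = t := by rw [norm_smul, H.ni, Real.norm_eq_abs, abs_of_nonneg h0, mul_one]
  constructor
  · have := norm_sub_norm_le (i u) (t • i b)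
    rw [H.ni, h2] at this; exact this
  · have := norm_sub_le (i u) (t • i b)
    rw [H.ni, h2] at this; linarith

/-- The chord through `t0 • i b` starting from `i p`. -/
lemma chord {i : ι → X} {j : ι → Y} (H : Setup i j) (b p : ι) {t0 : ℝ} (s0 : ℝ) (h0 : 0 ≤ t0)
    (h1 : t0 < 1) : ∃ u : ι, ∃ r : ℝ, 0 < r ∧ i u - t0 • i b = (-r) • (i p - t0 • i b) ∧
      ‖i p - t0 • i b‖ - ‖j p - s0 • j b‖ ≤ ‖j u - s0 • j b‖ - ‖i u - t0 • i b‖ := by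
  have hz : ‖t0 • i b‖ < 1 := by
    rw [norm_smul, H.ni, Real.norm_eq_abs, abs_of_nonneg h0, mul_one]; exact h1
  have hV : i p - t0 • i b ≠ 0 := by
    intro h
    have := (norm_bounds H b p h0 h1.le).1
    rw [h, norm_zero] at this
    linarith
  obtain ⟨r, hr, hr1⟩ := exists_chord (t0 • i b) (i p - t0 • i b) hz hV
  obtain ⟨u, hu⟩ := H.si _ hr1
  have e1 : i u - t0 • i b = (-r) • (i p - t0 • i b) := by rw [hu]; module
  refine ⟨u, r, hr, e1, ?_⟩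
  have e2 : i p - i u = (1 + r) • (i p - t0 • i b) := by rw [hu]; module
  have e3 : ‖i p - i u‖ = (1 + r) * ‖i p - t0 • i b‖ := by
    rw [e2, norm_smul, Real.norm_eq_abs, abs_of_pos (by linarith)]
  have e4 : ‖i u - t0 • i b‖ = r * ‖i p - t0 • i b‖ := by
    rw [e1, norm_smul, Real.norm_eq_abs, abs_neg, abs_of_pos hr]
  have e5 : ‖j p - j u‖ ≤ ‖j p - s0 • j b‖ + ‖j u - s0 • j b‖ := by
    have : j p - j u = (j p - s0 • j b) - (j u - s0 • j b) := by abel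
    rw [this]; exact norm_sub_le _ _
  rw [← H.iso, e3] at e5
  rw [e4]; linarith

/-- Upper bound for the potential of an almost farthest point. -/
lemma pot_upper {i : ι → X} {j : ι → Y} {b : ι} {t0 s0 lam h δ : ℝ}
    (T : Touch i j b t0 s0 lam h δ) (p : ι) {ε ξ : ℝ} (hξ : |ξ| ≤ 2 * δ)
    (hp : h - ε ≤ ‖i p - t0 • i b‖ - ‖j p - s0 • j b‖) :
    pot i b p t0 s0 lam h ξ ≤ ε + ξ ^ 2 / h := by
  have hξ' := abs_le.mp hξ
  have ha : 0 < 1 - t0 := by linarith [T.δ0, T.δ2]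
  have hb : 0 < 1 - s0 := by linarith [T.δ0, T.δ4]
  have h1 := T.test (t0 + ξ) s0 (by linarith [T.δ1]) (by linarith [T.δ2])
    (by linarith [T.δ0, T.δ3]) (by linarith [T.δ0, T.δ4]) p
  have h2 : (‖i p - (t0 + ξ) • i b‖ - ‖j p - s0 • j b‖) ^ 2 ≤
      (((1 - t0) - ξ) + ((1 - s0) - 0) + lam) ^ 2 - 4 * ((1 - t0) - ξ) * ((1 - s0) - 0) := by
    nlinarith
  obtain ⟨k1, k2, k3⟩ := key_real ha hb T.lam0 T.h0 T.h2 (ξ := ξ) (η := 0)
    (by linarith [T.δ5]) (by simp; linarith [T.h0]) h2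
  set m := h - ((1 - t0) - (1 - s0) + lam) / h * ξ - ((1 - s0) - (1 - t0) + lam) / h * 0 with hm
  have hh := T.h0
  have hE : 4 * lam * ((1 - s0) * ξ ^ 2 + (1 - t0) * 0 ^ 2 -
      ((1 - t0) + (1 - s0) + lam) * ξ * 0) / h ^ 2 ≤ ξ ^ 2 := by
    rw [div_le_iff₀ (by positivity)]
    have : 4 * lam * (1 - s0) ≤ h ^ 2 := by
      rw [T.h2]; nlinarith [sq_nonneg (s0 - t0 + lam)]
    nlinarith [sq_nonneg ξ]
  have k4 : (4 * lam * ((1 - s0) * ξ ^ 2 + (1 - t0) * 0 ^ 2 -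
      ((1 - t0) + (1 - s0) + lam) * ξ * 0) / h ^ 2) / (2 * m) ≤ ξ ^ 2 / h := by
    calc _ ≤ ξ ^ 2 / (2 * m) := by gcongr; linarith
      _ ≤ ξ ^ 2 / h := by gcongr; linarith
  have hm' : m = h - (s0 - t0 + lam) / h * ξ := by rw [hm]; ring
  unfold pot
  linarith

lemma pot_add_neg (i : ι → X) (b p : ι) (t0 s0 lam h ξ : ℝ) :
    0 ≤ pot i b p t0 s0 lam h ξ + pot i b p t0 s0 lam h (-ξ) := by
  unfold pot
  have e : (2 : ℝ) • (i p - t0 • i b) =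
      (i p - (t0 + ξ) • i b) + (i p - (t0 + -ξ) • i b) := by module
  have h1 := norm_add_le (i p - (t0 + ξ) • i b) (i p - (t0 + -ξ) • i b)
  rw [← e, norm_smul] at h1
  simp only [Real.norm_ofNat] at h1
  linarith

/-- There are almost farthest points whose normalised potential is at most `M`. -/
def Good (i : ι → X) (j : ι → Y) (b : ι) (t0 s0 lam h δ M : ℝ) : Prop :=
  ∀ η : ℝ, 0 < η → ∃ p : ι, ∃ s : ℝ, s ≠ 0 ∧ |s| ≤ δ ∧
    h - η * s ^ 2 ≤ ‖i p - t0 • i b‖ - ‖j p - s0 • j b‖ ∧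
    pot i b p t0 s0 lam h (‖i p - t0 • i b‖ * √(1 - t0) * s) ≤ M * ‖i p - t0 • i b‖ * s ^ 2

lemma xi_bound {α a s δ : ℝ} (hα0 : 0 ≤ α) (hα : α ≤ 2) (ha : a ≤ 1) (hs : |s| ≤ δ) :
    |α * √a * s| ≤ 2 * δ := by
  have h1 : √a ≤ 1 := Real.sqrt_le_one.mpr ha
  rw [abs_mul, abs_of_nonneg (by positivity)]
  have : α * √a ≤ 2 * 1 := by gcongr
  calc α * √a * |s| ≤ 2 * 1 * δ := by gcongr
    _ = 2 * δ := by ring

lemma pot_abs {i : ι → X} {j : ι → Y} (H : Setup i j) {b : ι} {t0 s0 lam h δ : ℝ}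
    (T : Touch i j b t0 s0 lam h δ) (p : ι) {s : ℝ} (hs : |s| ≤ δ)
    (hp : h - 1 * s ^ 2 ≤ ‖i p - t0 • i b‖ - ‖j p - s0 • j b‖) :
    pot i b p t0 s0 lam h (‖i p - t0 • i b‖ * √(1 - t0) * s) ≤
      (1 / (1 - t0) + 2 / h) * ‖i p - t0 • i b‖ * s ^ 2 := by
  have ha : 0 < 1 - t0 := by linarith [T.δ0, T.δ2]
  have ht0 : 0 ≤ t0 := by linarith [T.δ0, T.δ1]
  obtain ⟨n1, n2⟩ := norm_bounds H b p ht0 (by linarith)
  have h1 := pot_upper T p (xi_bound (norm_nonneg _) n2 (by linarith : 1 - t0 ≤ 1) hs) hp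
  set α := ‖i p - t0 • i b‖
  have hh := T.h0
  have hα : 0 < α := by linarith
  have e1 : (α * √(1 - t0) * s) ^ 2 = α ^ 2 * (1 - t0) * s ^ 2 := by
    rw [mul_pow, mul_pow, Real.sq_sqrt ha.le]
  have e2 : 1 * s ^ 2 ≤ 1 / (1 - t0) * α * s ^ 2 := by
    gcongr
    rw [one_div, inv_mul_eq_div, le_div_iff₀ ha]; linarith
  have e3 : (α * √(1 - t0) * s) ^ 2 / h ≤ 2 / h * α * s ^ 2 := by
    rw [e1, div_le_iff₀ hh]
    have : 2 / h * α * s ^ 2 * h = 2 * α * s ^ 2 := by field_simp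
    rw [this]
    have : α ^ 2 * (1 - t0) ≤ 2 * α := by nlinarith
    gcongr
  linarith

lemma Good.lower {i : ι → X} {j : ι → Y} (H : Setup i j) {b : ι} {t0 s0 lam h δ M : ℝ}
    (T : Touch i j b t0 s0 lam h δ) (G : Good i j b t0 s0 lam h δ M) :
    -(1 / (1 - t0) + 2 / h) ≤ M := by
  obtain ⟨p, s, hs0, hs, hp, hM⟩ := G 1 one_pos
  have ha : 0 < 1 - t0 := by linarith [T.δ0, T.δ2]
  have ht0 : 0 ≤ t0 := by linarith [T.δ0, T.δ1]
  obtain ⟨n1, n2⟩ := norm_bounds H b p ht0 (by linarith)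
  have h1 := pot_abs H T p (s := -s) (by rwa [abs_neg]) (by rwa [neg_sq])
  have h2 := pot_add_neg i b p t0 s0 lam h (‖i p - t0 • i b‖ * √(1 - t0) * s)
  rw [mul_neg, neg_sq] at h1
  have hpos : 0 < ‖i p - t0 • i b‖ * s ^ 2 := by
    have : 0 < ‖i p - t0 • i b‖ := by linarith
    positivity
  by_contra hcon
  have hcon' := not_le.mp hcon
  nlinarith

lemma Good.base {i : ι → X} {j : ι → Y} (H : Setup i j) {b : ι} {t0 s0 lam h δ : ℝ}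
    (T : Touch i j b t0 s0 lam h δ)
    (hex : ∀ ε : ℝ, 0 < ε → ∃ p, h - ε ≤ ‖i p - t0 • i b‖ - ‖j p - s0 • j b‖) :
    Good i j b t0 s0 lam h δ (1 / (1 - t0) + 2 / h) := by
  intro η hη
  have hδ := T.δ0
  obtain ⟨p, hp⟩ := hex (min η 1 * δ ^ 2) (by positivity)
  have h1 : min η 1 * δ ^ 2 ≤ η * δ ^ 2 := by gcongr; exact min_le_left _ _
  have h2 : min η 1 * δ ^ 2 ≤ 1 * δ ^ 2 := by gcongr; exact min_le_right _ _
  refine ⟨p, δ, hδ.ne', by rw [abs_of_pos hδ], by linarith, ?_⟩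
  exact pot_abs H T p (by rw [abs_of_pos hδ]) (by linarith)

end Crest.Agent.R74
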