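import Mathlib
import Crest.Agent.R74.Core

set_option autoImplicit false
set_option linter.unusedSectionVars false

namespace Crest.Agent.R74

variable {ι X Y : Type*} [NormedAddCommGroup X] [NormedSpace ℝ X]
  [NormedAddCommGroup Y] [NormedSpace ℝ Y]

/-- One billiard half-step lowers the potential by a fixed amount. -/
lemma half_step {i : ι → X} {j : ι → Y} (H : Setup i j) {b : ι} {t0 s0 lam h δ : ℝ}
    (T : Touch i j b t0 s0 lam h δ) :
    ∃ c : ℝ, 0 < c ∧ ∀ M : ℝ, Good i j b t0 s0 lam h δ M → Good j i b s0 t0 lam h δ (M - c) := by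
  have hδ := T.δ0
  have hh := T.h0
  have hlam := T.lam0
  have ha : 0 < 1 - t0 := by linarith [T.δ2]
  have hb : 0 < 1 - s0 := by linarith [T.δ4]
  have ht0 : 0 ≤ t0 := by linarith [T.δ1]
  have hs0 : 0 ≤ s0 := by linarith [T.δ3]
  have hδ1 : δ ≤ 1 := by linarith [T.δ1, T.δ2]
  set p1 := √(1 - t0) with hp1
  set p2 := √(1 - s0) with hp2
  have hp10 : 0 < p1 := Real.sqrt_pos.mpr ha
  have hp20 : 0 < p2 := Real.sqrt_pos.mpr hb
  have hp1s : p1 ^ 2 = 1 - t0 := Real.sq_sqrt ha.le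
  have hp2s : p2 ^ 2 = 1 - s0 := Real.sq_sqrt hb.le
  obtain ⟨c2, hc2, hneg⟩ := neg_real ha hb hlam hh T.h2 (g := p1 * p2) (by positivity)
    (by rw [mul_pow, hp1s, hp2s])
  set c5 := lam * (p1 * p2) * c2 / h ^ 3 with hc5
  have hc50 : 0 < c5 := by positivity
  refine ⟨c5 / 2, by positivity, fun M G η hη => ?_⟩
  set η' := min (min (η * (1 - t0) / 2) (c5 * (1 - t0) / 2)) h with hη'
  have hη'0 : 0 < η' := by
    apply lt_min (lt_min _ _) hh <;> positivity
  have hη'1 : η' ≤ η * (1 - t0) / 2 := (min_le_left _ _).trans (min_le_left _ _)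
  have hη'2 : η' ≤ c5 * (1 - t0) / 2 := (min_le_left _ _).trans (min_le_right _ _)
  have hη'3 : η' ≤ h := min_le_right _ _
  obtain ⟨p, s, hsne, hs, hp, hM⟩ := G η' hη'0
  obtain ⟨u, r, hr, e1, hu⟩ := chord H b p s0 ht0 (by linarith)
  obtain ⟨n1, n2⟩ := norm_bounds H b u ht0 (by linarith)
  obtain ⟨n3, n4⟩ := norm_bounds H.symm b u hs0 (by linarith)
  have hfar := T.far_le u
  set A := ‖i p - t0 • i b‖ with hA
  set α := ‖i u - t0 • i b‖ with hα
  set β := ‖j u - s0 • j b‖ with hβ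
  have hαA : α = r * A := by
    rw [hα, e1, norm_smul, Real.norm_eq_abs, abs_neg, abs_of_pos hr]
  have hα0 : 0 < α := by linarith
  have hβ0 : 0 < β := by linarith
  have hs2 : s ^ 2 ≤ 1 := by
    have : |s| ≤ 1 := hs.trans hδ1
    rw [← sq_abs]; exact pow_le_one₀ (abs_nonneg s) this
  have hs2pos : 0 < s ^ 2 := by positivity
  have hεh : η' * s ^ 2 ≤ h := by
    calc η' * s ^ 2 ≤ h * 1 := by gcongr
      _ = h := mul_one _
  have hαβ : α ≤ β := by linarith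
  set κ := √(α / β) with hκ
  have hκ0 : 0 < κ := Real.sqrt_pos.mpr (by positivity)
  have hκ2 : κ ^ 2 * β = α := by
    rw [hκ, Real.sq_sqrt (by positivity)]; field_simp
  have hκ1 : κ ≤ 1 := Real.sqrt_le_one.mpr ((div_le_one hβ0).mpr hαβ)
  have hs' : |-s * κ| ≤ δ := by
    rw [abs_mul, abs_neg, abs_of_pos hκ0]
    calc |s| * κ ≤ δ * 1 := by gcongr
      _ = δ := mul_one _
  have hsq : β * (-s * κ) ^ 2 = α * s ^ 2 := by rw [← hκ2]; ring
  have hs'2 : (1 - t0) * s ^ 2 ≤ 2 * (-s * κ) ^ 2 := by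
    have : (1 - t0) * s ^ 2 ≤ α * s ^ 2 := by gcongr
    have : β * (-s * κ) ^ 2 ≤ 2 * (-s * κ) ^ 2 := by gcongr
    linarith
  refine ⟨u, -s * κ, mul_ne_zero (neg_ne_zero.mpr hsne) hκ0.ne', hs', ?_, ?_⟩
  · have : η' * s ^ 2 ≤ η * (-s * κ) ^ 2 := by
      calc η' * s ^ 2 ≤ (η * (1 - t0) / 2) * s ^ 2 := by gcongr
        _ = η * ((1 - t0) * s ^ 2) / 2 := by ring
        _ ≤ η * (2 * (-s * κ) ^ 2) / 2 := by gcongr
        _ = η * (-s * κ) ^ 2 := by ring
    linarith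
  · set ξ := -(α * p1 * s) with hξ
    set ζ := β * p2 * (-s * κ) with hζ
    have hξb : |ξ| ≤ 2 * δ := by
      rw [hξ, abs_neg]; exact xi_bound hα0.le n2 (by linarith) hs
    have hζb : |ζ| ≤ 2 * δ := xi_bound hβ0.le n4 (by linarith) hs'
    have hξb' := abs_le.mp hξb
    have hζb' := abs_le.mp hζb
    have h1 := T.test (t0 + ξ) (s0 + ζ) (by linarith [T.δ1]) (by linarith [T.δ2])
      (by linarith [T.δ3]) (by linarith [T.δ4]) u
    have h2 : (‖j u - (s0 + ζ) • j b‖ - ‖i u - (t0 + ξ) • i b‖) ^ 2 ≤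
        (((1 - t0) - ξ) + ((1 - s0) - ζ) + lam) ^ 2 -
          4 * ((1 - t0) - ξ) * ((1 - s0) - ζ) := by
      refine h1.trans (le_of_eq ?_); ring
    obtain ⟨k1, k2, k3⟩ := key_real ha hb hlam hh T.h2 (ξ := ξ) (η := ζ)
      (by linarith [T.δ5]) (by linarith [T.δ5]) h2
    set m := h - ((1 - t0) - (1 - s0) + lam) / h * ξ - ((1 - s0) - (1 - t0) + lam) / h * ζ
      with hm
    have hm0 : 0 < m := by linarith
    -- the quadratic form
    have hγ := hneg α β (β * κ) n1 hαβ (by linarith) n4 (by positivity)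
      (by rw [← hκ2]; ring)
    have hQ : (1 - s0) * ξ ^ 2 + (1 - t0) * ζ ^ 2 - ((1 - t0) + (1 - s0) + lam) * ξ * ζ =
        s ^ 2 * α * (p1 * p2) *
          (p1 * p2 * (α + β) - ((1 - t0) + (1 - s0) + lam) * (β * κ)) := by
      have q1 : ζ ^ 2 = β * p2 ^ 2 * (α * s ^ 2) := by rw [← hsq, hζ]; ring
      rw [q1, hξ, hζ]
      have q2 : (1 - s0) * (-(α * p1 * s)) ^ 2 = p2 ^ 2 * (-(α * p1 * s)) ^ 2 := by rw [hp2s]
      have q3 : (1 - t0) * (β * p2 ^ 2 * (α * s ^ 2)) = p1 ^ 2 * (β * p2 ^ 2 * (α * s ^ 2)) := by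
        rw [hp1s]
      rw [q2, q3]; ring
    have hQ2 : (1 - s0) * ξ ^ 2 + (1 - t0) * ζ ^ 2 - ((1 - t0) + (1 - s0) + lam) * ξ * ζ ≤
        -(s ^ 2 * α * (p1 * p2) * c2) := by
      rw [hQ]
      have : 0 < s ^ 2 * α * (p1 * p2) := by positivity
      rw [← mul_neg]
      exact mul_le_mul_of_nonneg_left hγ this.le
    have k4 : (4 * lam * ((1 - s0) * ξ ^ 2 + (1 - t0) * ζ ^ 2 -
        ((1 - t0) + (1 - s0) + lam) * ξ * ζ) / h ^ 2) / (2 * m) ≤ -(c5 * (α * s ^ 2)) := by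
      have w1 : 4 * lam * ((1 - s0) * ξ ^ 2 + (1 - t0) * ζ ^ 2 -
          ((1 - t0) + (1 - s0) + lam) * ξ * ζ) / h ^ 2 ≤ -(c5 * (α * s ^ 2)) * (4 * h) := by
        rw [div_le_iff₀ (by positivity)]
        have : -(c5 * (α * s ^ 2)) * (4 * h) * h ^ 2 =
            4 * lam * (-(s ^ 2 * α * (p1 * p2) * c2)) := by
          rw [hc5]; field_simp
        rw [this]
        gcongr
      rw [div_le_iff₀ (by positivity)]
      have : 0 < c5 * (α * s ^ 2) := by positivity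
      refine w1.trans ?_
      rw [neg_mul, neg_mul, neg_le_neg_iff]
      exact mul_le_mul_of_nonneg_left (by linarith only [k2]) this.le
    -- homothety
    have e2 : i u - (t0 + ξ) • i b = (-r) • (i p - (t0 + A * p1 * s) • i b) := by
      have : i u - (t0 + ξ) • i b = (i u - t0 • i b) - ξ • i b := by module
      rw [this, e1, hξ, hαA]; module
    have e3 : ‖i u - (t0 + ξ) • i b‖ = r * ‖i p - (t0 + A * p1 * s) • i b‖ := by
      rw [e2, norm_smul, Real.norm_eq_abs, abs_neg, abs_of_pos hr]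
    have hM' : r * (‖i p - (t0 + A * p1 * s) • i b‖ - A + (s0 - t0 + lam) / h * (A * p1 * s)) ≤
        r * (M * A * s ^ 2) := mul_le_mul_of_nonneg_left hM hr.le
    have e4 : r * (‖i p - (t0 + A * p1 * s) • i b‖ - A + (s0 - t0 + lam) / h * (A * p1 * s)) =
        ‖i u - (t0 + ξ) • i b‖ - α - (s0 - t0 + lam) / h * ξ := by
      rw [e3, hξ, hαA]; ring
    have e5 : r * (M * A * s ^ 2) = M * (α * s ^ 2) := by rw [hαA]; ring
    rw [e4, e5] at hM'
    have hm' : m = h - (s0 - t0 + lam) / h * ξ - (t0 - s0 + lam) / h * ζ := by rw [hm]; ring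
    have w2 : η' * s ^ 2 ≤ c5 / 2 * (α * s ^ 2) := by
      calc η' * s ^ 2 ≤ (c5 * (1 - t0) / 2) * s ^ 2 := by gcongr
        _ = c5 / 2 * ((1 - t0) * s ^ 2) := by ring
        _ ≤ c5 / 2 * (α * s ^ 2) := by gcongr
    have e6 : (M - c5 / 2) * β * (-s * κ) ^ 2 = M * (α * s ^ 2) - c5 / 2 * (α * s ^ 2) := by
      rw [mul_assoc, hsq]; ring
    unfold pot
    rw [e6]
    linarith only [k3, k4, hM', hm', w2, hp, hu]

/-- An interior touching point cannot exist. -/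
lemma no_touch {i : ι → X} {j : ι → Y} (H : Setup i j) {b : ι} {t0 s0 lam h δ : ℝ}
    (T : Touch i j b t0 s0 lam h δ)
    (hex : ∀ ε : ℝ, 0 < ε → ∃ p, h - ε ≤ |‖j p - s0 • j b‖ - ‖i p - t0 • i b‖|) : False := by
  have hex' : ∀ ε : ℝ, 0 < ε → ∃ p, h - ε ≤ ‖i p - t0 • i b‖ - ‖j p - s0 • j b‖ := by
    intro ε hε
    obtain ⟨p, hp⟩ := hex ε hε
    rcases le_abs'.mp hp with h1 | h1
    · exact ⟨p, by linarith⟩
    · obtain ⟨u, r, -, -, hu⟩ := chord H.symm b p t0 (t0 := s0) (by linarith [T.δ0, T.δ3])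
        (by linarith [T.δ0, T.δ4])
      exact ⟨u, by linarith⟩
  obtain ⟨c1, hc1, h1⟩ := half_step H T
  obtain ⟨c2, hc2, h2⟩ := half_step H.symm T.symm
  set C := 1 / (1 - t0) + 2 / h
  have hind : ∀ n : ℕ, Good i j b t0 s0 lam h δ (C - n * (c1 + c2)) := by
    intro n
    induction n with
    | zero =>
      have := Good.base H T hex'
      convert this using 1
      simp [C]
    | succ n ih =>
      have := h2 _ (h1 _ ih)
      convert this using 1
      push_cast; ring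
  obtain ⟨n, hn⟩ := exists_nat_gt (2 * C / (c1 + c2))
  have := (hind n).lower H T
  rw [div_lt_iff₀ (by positivity)] at hn
  change -C ≤ _ at this
  linarith

end Crest.Agent.R74
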