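import Mathlib
import Crest.Agent.R74.Step

set_option autoImplicit false
set_option linter.unusedSectionVars false

namespace Crest.Agent.R74

variable {ι X Y : Type*} [NormedAddCommGroup X] [NormedSpace ℝ X]
  [NormedAddCommGroup Y] [NormedSpace ℝ Y]

/-- The defect function on the radial square. -/
noncomputable def rho (i : ι → X) (j : ι → Y) (b : ι) (q : ℝ × ℝ) : ℝ :=
  ⨆ u : ι, |‖j u - q.2 • j b‖ - ‖i u - q.1 • i b‖|

lemma diff_le {i : ι → X} {j : ι → Y} (H : Setup i j) (b u : ι) (t s t' s' : ℝ) :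
    |‖j u - s • j b‖ - ‖i u - t • i b‖| ≤
      |‖j u - s' • j b‖ - ‖i u - t' • i b‖| + |t - t'| + |s - s'| := by
  have h1 : |‖j u - s • j b‖ - ‖j u - s' • j b‖| ≤ |s - s'| := by
    refine (abs_norm_sub_norm_le _ _).trans (le_of_eq ?_)
    have : j u - s • j b - (j u - s' • j b) = (s' - s) • j b := by module
    rw [this, norm_smul, H.nj, mul_one, Real.norm_eq_abs, abs_sub_comm]
  have h2 : |‖i u - t • i b‖ - ‖i u - t' • i b‖| ≤ |t - t'| := by
    refine (abs_norm_sub_norm_le _ _).trans (le_of_eq ?_)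
    have : i u - t • i b - (i u - t' • i b) = (t' - t) • i b := by module
    rw [this, norm_smul, H.ni, mul_one, Real.norm_eq_abs, abs_sub_comm]
  have h3 := le_abs_self (‖j u - s' • j b‖ - ‖i u - t' • i b‖)
  have h4 := neg_abs_le (‖j u - s' • j b‖ - ‖i u - t' • i b‖)
  rw [abs_le] at h1 h2 ⊢
  constructor <;> linarith [h1.1, h1.2, h2.1, h2.2]

lemma diff_zero {i : ι → X} {j : ι → Y} (H : Setup i j) (b u : ι) (t s : ℝ) :
    |‖j u - s • j b‖ - ‖i u - t • i b‖| ≤ |t| + |s| := by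
  have := diff_le H b u t s 0 0
  simpa [H.ni, H.nj] using this

lemma diff_one {i : ι → X} {j : ι → Y} (H : Setup i j) (b u : ι) (t s : ℝ) :
    |‖j u - s • j b‖ - ‖i u - t • i b‖| ≤ |t - 1| + |s - 1| := by
  have := diff_le H b u t s 1 1
  simpa [H.iso] using this

lemma le_rho {i : ι → X} {j : ι → Y} (H : Setup i j) (b u : ι) (q : ℝ × ℝ) :
    |‖j u - q.2 • j b‖ - ‖i u - q.1 • i b‖| ≤ rho i j b q := by
  refine le_ciSup (f := fun u : ι => |‖j u - q.2 • j b‖ - ‖i u - q.1 • i b‖|) ?_ u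
  exact ⟨|q.1| + |q.2|, by rintro _ ⟨u, rfl⟩; exact diff_zero H b u _ _⟩

lemma rho_le {i : ι → X} {j : ι → Y} (b : ι) (q : ℝ × ℝ) {c : ℝ}
    (h : ∀ u, |‖j u - q.2 • j b‖ - ‖i u - q.1 • i b‖| ≤ c) : rho i j b q ≤ c := by
  haveI : Nonempty ι := ⟨b⟩
  exact ciSup_le h

lemma rho_nonneg {i : ι → X} {j : ι → Y} (H : Setup i j) (b : ι) (q : ℝ × ℝ) :
    0 ≤ rho i j b q := (abs_nonneg _).trans (le_rho H b b q)

lemma rho_continuous {i : ι → X} {j : ι → Y} (H : Setup i j) (b : ι) :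
    Continuous (rho i j b) := by
  have : LipschitzWith 2 (rho i j b) := by
    apply LipschitzWith.of_le_add_mul
    intro q q'
    apply rho_le
    intro u
    have h1 := diff_le H b u q.1 q.2 q'.1 q'.2
    have h2 := le_rho H b u q'
    have h3 : |q.1 - q'.1| ≤ dist q q' := by
      rw [← Real.dist_eq, Prod.dist_eq]; exact le_max_left _ _
    have h4 : |q.2 - q'.2| ≤ dist q q' := by
      rw [← Real.dist_eq, Prod.dist_eq]; exact le_max_right _ _
    simp only [NNReal.coe_ofNat]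
    linarith
  exact this.continuous

theorem radial {i : ι → X} {j : ι → Y} (H : Setup i j) (a b : ι) {t : ℝ} (ht0 : 0 ≤ t)
    (ht1 : t ≤ 1) : ‖j a - t • j b‖ = ‖i a - t • i b‖ := by
  set Λ : ℝ × ℝ → ℝ := fun q =>
    √(rho i j b q ^ 2 + 4 * (1 - q.1) * (1 - q.2)) - (1 - q.1) - (1 - q.2) with hΛ
  have hc : Continuous Λ := by
    have := rho_continuous H b
    rw [hΛ]; fun_prop
  have hK : IsCompact (Set.Icc (0 : ℝ) 1 ×ˢ Set.Icc (0 : ℝ) 1) :=
    isCompact_Icc.prod isCompact_Icc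
  obtain ⟨⟨t0, s0⟩, ⟨⟨h1, h2⟩, h3, h4⟩, hmax⟩ :=
    hK.exists_isMaxOn ⟨(0, 0), by simp⟩ hc.continuousOn
  simp only at h1 h2 h3 h4
  set lam := Λ (t0, s0) with hlam
  have hall : ∀ t s : ℝ, 0 ≤ t → t ≤ 1 → 0 ≤ s → s ≤ 1 →
      rho i j b (t, s) ^ 2 ≤ ((1 - t) + (1 - s) + lam) ^ 2 - 4 * (1 - t) * (1 - s) := by
    intro t s k1 k2 k3 k4
    have hle : Λ (t, s) ≤ lam := hmax (show (t, s) ∈ _ from ⟨⟨k1, k2⟩, k3, k4⟩)
    have hnn : 0 ≤ rho i j b (t, s) ^ 2 + 4 * (1 - t) * (1 - s) := by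
      have : 0 ≤ 1 - t := by linarith
      have : 0 ≤ 1 - s := by linarith
      positivity
    have e1 : √(rho i j b (t, s) ^ 2 + 4 * (1 - t) * (1 - s)) ≤ (1 - t) + (1 - s) + lam := by
      simp only [hΛ] at hle; linarith
    have e2 := pow_le_pow_left₀ (Real.sqrt_nonneg _) e1 2
    rw [Real.sq_sqrt hnn] at e2
    linarith
  have hlam0 : lam ≤ 0 := by
    by_contra hcon
    have hpos : 0 < lam := not_le.mp hcon
    set h := rho i j b (t0, s0) with hh
    have hh0 : 0 ≤ h := rho_nonneg H b _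
    have hnn : 0 ≤ h ^ 2 + 4 * (1 - t0) * (1 - s0) := by
      have : 0 ≤ 1 - t0 := by linarith
      have : 0 ≤ 1 - s0 := by linarith
      positivity
    have e1 : √(h ^ 2 + 4 * (1 - t0) * (1 - s0)) = (1 - t0) + (1 - s0) + lam := by
      rw [hlam]; simp only [hΛ]; ring
    have e2 : h ^ 2 = ((1 - t0) + (1 - s0) + lam) ^ 2 - 4 * (1 - t0) * (1 - s0) := by
      rw [← e1, Real.sq_sqrt hnn]; ring
    have e3 : (t0 - s0) ^ 2 < h ^ 2 := by
      rw [e2]
      have : 0 ≤ lam * (1 - t0) := mul_nonneg hpos.le (by linarith)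
      have : 0 ≤ lam * (1 - s0) := mul_nonneg hpos.le (by linarith)
      have : 0 < lam ^ 2 := by positivity
      nlinarith
    have e4 : |t0 - s0| < h := abs_lt_of_sq_lt_sq e3 hh0
    have hz : h ≤ |t0| + |s0| := rho_le b _ fun u => diff_zero H b u _ _
    have ho : h ≤ |t0 - 1| + |s0 - 1| := rho_le b _ fun u => diff_one H b u _ _
    rw [abs_of_nonneg h1, abs_of_nonneg h3] at hz
    rw [abs_of_nonpos (by linarith), abs_of_nonpos (by linarith)] at ho
    have e5 := abs_lt.mp e4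
    have g1 : 0 < t0 := by linarith [e5.1, e5.2]
    have g2 : 0 < s0 := by linarith [e5.1, e5.2]
    have g3 : 0 < 1 - t0 := by linarith [e5.1, e5.2]
    have g4 : 0 < 1 - s0 := by linarith [e5.1, e5.2]
    have g5 : 0 < h := by linarith [e5.1, e5.2]
    set δ := min (min (min t0 s0) (min (1 - t0) (1 - s0))) h / 8 with hδ
    have d0 : 0 < min (min (min t0 s0) (min (1 - t0) (1 - s0))) h :=
      lt_min (lt_min (lt_min g1 g2) (lt_min g3 g4)) g5
    have d1 : min (min (min t0 s0) (min (1 - t0) (1 - s0))) h ≤ t0 :=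
      (min_le_left _ _).trans ((min_le_left _ _).trans (min_le_left _ _))
    have d2 : min (min (min t0 s0) (min (1 - t0) (1 - s0))) h ≤ s0 :=
      (min_le_left _ _).trans ((min_le_left _ _).trans (min_le_right _ _))
    have d3 : min (min (min t0 s0) (min (1 - t0) (1 - s0))) h ≤ 1 - t0 :=
      (min_le_left _ _).trans ((min_le_right _ _).trans (min_le_left _ _))
    have d4 : min (min (min t0 s0) (min (1 - t0) (1 - s0))) h ≤ 1 - s0 :=
      (min_le_left _ _).trans ((min_le_right _ _).trans (min_le_right _ _))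
    have d5 : min (min (min t0 s0) (min (1 - t0) (1 - s0))) h ≤ h := min_le_right _ _
    have T : Touch i j b t0 s0 lam h δ :=
      { lam0 := hpos
        h0 := g5
        δ0 := by rw [hδ]; linarith
        δ1 := by rw [hδ]; linarith
        δ2 := by rw [hδ]; linarith
        δ3 := by rw [hδ]; linarith
        δ4 := by rw [hδ]; linarith
        δ5 := by rw [hδ]; linarith
        h2 := e2
        test := fun t s k1 k2 k3 k4 u => by
          refine le_trans ?_ (hall t s k1 k2 k3 k4)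
          rw [← sq_abs]
          exact pow_le_pow_left₀ (abs_nonneg _) (le_rho H b u (t, s)) 2 }
    refine no_touch H T fun ε hε => ?_
    by_contra hcon2
    have : h ≤ h - ε := by
      apply rho_le
      intro u
      by_contra hc3
      exact hcon2 ⟨u, (not_le.mp hc3).le⟩
    linarith
  have hle : Λ (t, t) ≤ lam := hmax (show (t, t) ∈ _ from ⟨⟨ht0, ht1⟩, ht0, ht1⟩)
  have hnn : 0 ≤ rho i j b (t, t) ^ 2 + 4 * (1 - t) * (1 - t) := by
    have : 0 ≤ 1 - t := by linarith
    positivity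
  have e1 : √(rho i j b (t, t) ^ 2 + 4 * (1 - t) * (1 - t)) ≤ (1 - t) + (1 - t) := by
    simp only [hΛ] at hle; linarith
  have e2 := pow_le_pow_left₀ (Real.sqrt_nonneg _) e1 2
  rw [Real.sq_sqrt hnn] at e2
  have e3 : rho i j b (t, t) ^ 2 ≤ 0 := by nlinarith
  have e4 : rho i j b (t, t) = 0 := by
    exact pow_eq_zero_iff (two_ne_zero) |>.mp (le_antisymm e3 (sq_nonneg _))
  have e5 := le_rho H b a (t, t)
  rw [e4] at e5
  exact sub_eq_zero.mp (abs_nonpos_iff.mp e5)

theorem scaled {i : ι → X} {j : ι → Y} (H : Setup i j) (a b : ι) {r t : ℝ} (hr : 0 ≤ r)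
    (ht : 0 ≤ t) : ‖r • j a - t • j b‖ = ‖r • i a - t • i b‖ := by
  wlog hrt : t ≤ r generalizing a b r t
  · rw [norm_sub_rev, this b a ht hr (not_le.mp hrt).le, norm_sub_rev]
  rcases hr.eq_or_lt with h0 | h0
  · have : t = 0 := le_antisymm (h0 ▸ hrt) ht
    subst this; subst h0; simp
  · have e1 : r • j a - t • j b = r • (j a - (t / r) • j b) := by
      rw [smul_sub, smul_smul]; congr 2; field_simp
    have e2 : r • i a - t • i b = r • (i a - (t / r) • i b) := by
      rw [smul_sub, smul_smul]; congr 2; field_simp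
    rw [e1, e2, norm_smul, norm_smul, radial H a b (by positivity) ((div_le_one h0).mpr hrt)]

end Crest.Agent.R74
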